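import Vale.Agent.P167.H208.Tub.Core
import Vale.Agent.P167.H662.Z.Near
import Vale.Agent.P167.H662.Z.Chain

/-!
# P167, general `q`, block Q-START (P2S): existence of the tubes at the special points
-/

namespace Vale.Agent.P167.H208.Tub

open Finset Filter
open Vale.Agent.P167.FK (Bq)
open Vale.Agent.P167.E6 (IsPolygon Encloses dir face)
open Vale.Agent.P167.H825 (enl pdir Marks)
open Vale.Agent.P167.H825.Q (Row Bc jpos)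
open Vale.Agent.P167.H680.T (uI frows)
open Vale.Agent.P167.H199 (Gap)
open Vale.Agent.P167.H166N (Hs Qs nm_tri nm_comm)
open Vale.Agent.P167.H704.S (zn nm_zn zn_step nm_smul_dir TubP Tub)
open Vale.Agent.P167.H662.Z
open Vale.Agent.P167.Enl (BGap vp tB ip_in face_near theta_nonneg theta_le_one R0 nm_enl)

variable {l : ℕ} {p : ZMod l → ℤ × ℤ} {n : ℕ} {S₀ : Finset (ℤ × ℤ)} {Q : Marks} {bc : Bc}
  {θ β : ℝ}

open Classical in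
/-- The boxes at the other special points. -/
noncomputable def oB (p : ZMod l → ℤ × ℤ) (n : ℕ) (Q : Marks) (bc : Bc)
    (x : Fin l × Fin (Q.m + 1)) (R : ℤ) : Finset (ℤ × ℤ) :=
  (univ.filter fun y => Spc l Q bc y ∧ y ≠ x).biUnion fun y => Bq (yO p n Q bc y.1) R

theorem mem_oB {x : Fin l × Fin (Q.m + 1)} {R : ℤ} {v : ℤ × ℤ} :
    v ∈ oB p n Q bc x R ↔ ∃ y, Spc l Q bc y ∧ y ≠ x ∧ v ∈ Bq (yO p n Q bc y.1) R := by
  classical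
  unfold oB
  rw [mem_biUnion]
  constructor
  · rintro ⟨y, hy, hv⟩
    rw [mem_filter] at hy
    exact ⟨y, hy.2.1, hy.2.2, hv⟩
  · rintro ⟨y, h1, h2, hv⟩
    exact ⟨y, mem_filter.2 ⟨mem_univ _, h1, h2⟩, hv⟩

/-- One special row on each side. -/
theorem spc_inj (hQ : Q.Ok) {x y : Fin l × Fin (Q.m + 1)} (hx : Spc l Q bc x)
    (hy : Spc l Q bc y) (h : x.1 = y.1) : x = y := by
  obtain ⟨-, a1, a2⟩ := hx
  obtain ⟨-, b1, b2⟩ := hy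
  have hx2 := x.2.isLt
  have hy2 := y.2.isLt
  rw [← h] at b1 b2
  refine Prod.ext h (Fin.ext ?_)
  rcases lt_trichotomy (x.2 : ℕ) (y.2 : ℕ) with h1 | h1 | h1
  · have h3 := H199.marks_mono hQ x.1 (show (x.2 : ℕ) + 1 ≤ y.2 by omega) (by omega)
    linarith
  · exact h1
  · have h3 := H199.marks_mono hQ x.1 (show (y.2 : ℕ) + 1 ≤ x.2 by omega) (by omega)
    linarith

theorem spc_pos (hQ : Q.Ok) {x : Fin l × Fin (Q.m + 1)} (hx : Spc l Q bc x) :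
    0 < tS Q bc x.1 ∧ tS Q bc x.1 < 1 := by
  obtain ⟨-, a1, a2⟩ := hx
  have hx2 := x.2.isLt
  have h1 := theta_nonneg hQ x.1 (show (x.2 : ℕ) ≤ Q.m + 1 by omega)
  have h2 := theta_le_one hQ x.1 (show (x.2 : ℕ) + 1 ≤ Q.m + 1 by omega)
  constructor <;> linarith

theorem exists_lower {ι : Type*} [Finite ι] (f : ι → ℝ) (hf : ∀ i, 0 < f i) :
    ∃ e : ℝ, 0 < e ∧ ∀ i, e ≤ f i := by
  rcases isEmpty_or_nonempty ι with h | h
  · exact ⟨1, one_pos, fun i => isEmptyElim i⟩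
  · obtain ⟨i, hi⟩ := Finite.exists_min f
    exact ⟨f i, hf i, hi⟩

section

variable (hp : IsPolygon p) (hD : Encloses p S₀) (hQ : Q.Ok) {g δ : ℝ} (hg : Gap Q l g)
  (hbg : BGap l Q g bc) (hδ : 0 < δ) (hδg : 4 * δ ≤ g) (hn : 16 ≤ δ * n)

include hQ hg hbg hδ hδg hn in
theorem jpos_lt {x : Fin l × Fin (Q.m + 1)} (h : Spc l Q bc x) :
    jpos n (tB n Q) bc x.1 < n := by
  obtain ⟨-, -, -, m4⟩ := spc_ends (p := fun _ => 0) hQ hg hbg hδ hδg hn h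
  have h1 : 4 * δ * n ≤ g * n := mul_le_mul_of_nonneg_right hδg (Nat.cast_nonneg n)
  have : ((jpos n (tB n Q) bc x.1 : ℕ) : ℝ) < n := by linarith
  exact_mod_cast this

include hp hD hQ hg hbg hδ hδg hn in
/-- A square of the domain next to a special point. -/
theorem near_enl {x : Fin l × Fin (Q.m + 1)} (h : Spc l Q bc x) :
    ∃ w ∈ enl S₀ n, nm (yO p n Q bc x.1 - w) ≤ 2 := by
  have h1 := jpos_lt hQ hg hbg hδ hδg hn h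
  refine ⟨_, ip_in hp hD x.1.2 h1, ?_⟩
  have h2 := nm_tri (yO p n Q bc x.1) (yI p n Q bc x.1)
    (face (vp p n x.1 (jpos n (tB n Q) bc x.1 : ℕ)) (pdir p x.1))
  have h3 : nm (yI p n Q bc x.1 -
      face (vp p n x.1 (jpos n (tB n Q) bc x.1 : ℕ)) (pdir p x.1)) ≤ 1 := by
    rw [nm_comm]
    exact face_near _ _
  rw [nm_yO] at h2
  omega

include hp hQ hg hbg hδ hδg hn in
/-- The boxes at the other special points are far. -/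
theorem oB_far {x : Fin l × Fin (Q.m + 1)} (h : Spc l Q bc x) {R : ℤ}
    (hR : (R : ℝ) ≤ g * n / 4) {v : ℤ × ℤ} (hv : (nm (v - yO p n Q bc x.1) : ℝ) ≤ g * n / 4) :
    v ∉ oB p n Q bc x R := by
  intro hvB
  obtain ⟨y, hy, hyx, hvy⟩ := mem_oB.1 hvB
  have hne : (y.1 : ℕ) ≠ x.1 := fun h' => hyx (spc_inj hQ hy h (Fin.ext h'))
  have h1 := jpos_lt hQ hg hbg hδ hδg hn hy
  have h2 := z3_far hp hQ hg hbg hδ hδg hn h y.1.2 h1.le hne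
  have h3 := nm_of_Bq hvy
  have h4 := nm_tri (yO p n Q bc x.1) v (yO p n Q bc y.1)
  have h5 := nm_tri (yO p n Q bc x.1) (yO p n Q bc y.1) (yI p n Q bc y.1)
  rw [nm_yO] at h5
  rw [nm_comm (yO p n Q bc x.1) v] at h4
  have h6 : nm (yO p n Q bc x.1 - vp p n y.1 (jpos n (tB n Q) bc y.1 : ℕ)) ≤
      nm (v - yO p n Q bc x.1) + R + 1 := by
    show nm (yO p n Q bc x.1 - yI p n Q bc y.1) ≤ _
    omega
  have h7 : (nm (yO p n Q bc x.1 - vp p n y.1 (jpos n (tB n Q) bc y.1 : ℕ)) : ℝ) ≤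
      nm (v - yO p n Q bc x.1) + R + 1 := by exact_mod_cast h6
  have h8 : 4 * δ * n ≤ g * n := mul_le_mul_of_nonneg_right hδg (Nat.cast_nonneg n)
  linarith

include hp hD hQ hg hbg hδ hδg hn in
theorem oB_near {x : Fin l × Fin (Q.m + 1)} {R : ℤ} {v : ℤ × ℤ}
    (hv : v ∈ oB p n Q bc x R) : ∃ w ∈ enl S₀ n, nm (v - w) ≤ R + 2 := by
  obtain ⟨y, hy, -, hvy⟩ := mem_oB.1 hv
  obtain ⟨w, hw, hyw⟩ := near_enl hp hD hQ hg hbg hδ hδg hn hy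
  refine ⟨w, hw, ?_⟩
  have h3 := nm_of_Bq hvy
  have h4 := nm_tri v (yO p n Q bc y.1) w
  omega

include hp hD hQ hg hbg hδ hδg hn in
/-- The two tubes, for one size. -/
theorem tub_n {K : ℕ} (hK : 3 ≤ K) {Λ s0 ρ : ℤ} (hΛ : 1 ≤ Λ) {C r r1 m N : ℕ}
    (hC : R0 p S₀ + 1 ≤ C) (q1 : (1 : ℤ) ≤ r) (q2 : s0 ≤ (r : ℤ)) (q3 : (r : ℤ) ≤ r1)
    (q4 : ρ + 8 ≤ (r1 : ℤ)) (q5 : Λ * (Λ + 1) * (K + 6) * r + (4 * Λ + 20) ≤ ρ)
    (q6 : (r1 : ℤ) ≤ n) (q7 : (2 * (K : ℤ) + 30) * r1 ≤ ⌊g * n / 4⌋)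
    (q8 : ((K : ℤ) + 12) * r1 ≤ ((N : ℤ) - 2) * r) (hmN : m + 2 ≤ N)
    {x : Fin l × Fin (Q.m + 1)} (hx : Spc l Q bc x) {z : ℕ → ℤ × ℤ}
    (z0 : z 0 = (n : ℤ) • p ((x.1 : ℕ) : ZMod l) +
      (⌊tS Q bc x.1 * n⌋₊ : ℤ) • dir (pdir p x.1) +
      ((K + 12 : ℤ) * (r1 : ℤ)) • dir (pdir p x.1 - 1))
    (z1 : ∀ i < m, nm (z (i + 1) - z i) ≤ (r1 : ℤ))
    (z2 : ∀ i ≤ m, ∀ v, nm (v - z i) ≤ (K + 11) * (r1 : ℤ) → v ∉ enl S₀ n)
    (z3 : ((K * (C + 13) + C + 10 : ℕ) : ℝ) * n < nm (z m)) :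
    ∃ (s R₀ : ℤ) (T T' : TubP), 2 ≤ s ∧ s + 8 ≤ ρ ∧
      Tub K Λ s0 N (enl S₀ n) (uI (frows θ β p Q n ⌊δ * n⌋₊ bc))
        (oB p n Q bc x (ρ + 4)) (yO p n Q bc x.1) (pdir p x.1) 0 (s - 1) ρ R₀ T ∧
      Tub K Λ s0 N (enl S₀ n) (uI (frows θ β p Q n ⌊δ * n⌋₊ bc))
        (oB p n Q bc x (ρ + 4)) (yO p n Q bc x.1) (pdir p x.1) (s + 2) (ρ - 4) ρ R₀ T' := by
  have n4 : 0 < n := by
    have : (1 : ℤ) ≤ n := by omega
    omega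
  have hn0 : (1 : ℝ) ≤ n := by exact_mod_cast n4
  -- the geometry
  have hnE : ∀ w ∈ enl S₀ n, nm w ≤ C * n := by
    intro w hw
    have h1 := nm_enl (p := p) hw
    have h2 : (R0 p S₀ + 1) * n ≤ C * n := mul_le_mul_of_nonneg_right hC (by linarith)
    have h3 : (nm w : ℝ) ≤ C * n := h1.trans h2
    exact_mod_cast h3
  have hEE : ∀ w ∈ enl S₀ n, ∀ w' ∈ enl S₀ n, nm (w - w') + ρ + 12 ≤
      2 * ((C + 13 : ℤ) * n) := by
    intro w hw w' hw'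
    have h1 := nm_tri w 0 w'
    rw [sub_zero, nm_comm 0 w', sub_zero] at h1
    have h2 := hnE w hw
    have h3 := hnE w' hw'
    have h4 : 2 * ((C + 13 : ℤ) * n) = 2 * (C * n) + 26 * n := by ring
    rw [h4]
    generalize (C : ℤ) * n = X at h2 h3 ⊢
    omega
  obtain ⟨wP, hwP, hPw⟩ := near_enl hp hD hQ hg hbg hδ hδg hn hx
  have hnP : nm (yO p n Q bc x.1) ≤ C * n + 2 := by
    have h1 := nm_tri (yO p n Q bc x.1) wP 0
    rw [sub_zero, sub_zero] at h1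
    have := hnE wP hwP
    linarith
  have hfar : (K : ℤ) * ((C + 13 : ℤ) * n) + 2 + r1 ≤ nm (z m - yO p n Q bc x.1) := by
    have h1 : ((K * (C + 13) + C + 10 : ℕ) : ℤ) * n < nm (z m) := by exact_mod_cast z3
    have h2 := nm_tri (z m) (yO p n Q bc x.1) 0
    rw [sub_zero, sub_zero] at h2
    have h3 : ((K * (C + 13) + C + 10 : ℕ) : ℤ) * n = K * ((C + 13 : ℤ) * n) + C * n + 10 * n := by
      push_cast
      ring
    rw [h3] at h1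
    generalize (K : ℤ) * ((C + 13 : ℤ) * n) = X at h1 ⊢
    generalize (C : ℤ) * n = Y at h1 hnP
    omega
  have hout : ∀ v, nm (v - yO p n Q bc x.1) ≤ ⌊g * n / 4⌋ →
      v ∈ Qs (pdir p x.1) (yO p n Q bc x.1) →
      v ∉ enl S₀ n ∧ v ∉ uI (frows θ β p Q n ⌊δ * n⌋₊ bc) := fun v hv hvQ =>
    z3_out hp hD hQ hg hbg hδ hδg hn hx (Int.le_floor.1 hv) hvQ
  have hKr1 : (0 : ℤ) ≤ (K : ℤ) * r1 := by positivity
  have hR4 : ((ρ + 4 : ℤ) : ℝ) ≤ g * n / 4 := by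
    have h1 : (ρ + 4 : ℤ) ≤ ⌊g * n / 4⌋ := by
      refine le_trans ?_ q7
      have e : (2 * (K : ℤ) + 30) * r1 = 2 * (K * r1) + 30 * r1 := by ring
      omega
    exact Int.le_floor.1 h1
  have hB1 : ∀ v, nm (v - yO p n Q bc x.1) ≤ ⌊g * n / 4⌋ →
      v ∉ oB p n Q bc x (ρ + 4) := fun v hv =>
    oB_far hp hQ hg hbg hδ hδg hn hx hR4 (Int.le_floor.1 hv)
  have hI : ∀ v ∈ uI (frows θ β p Q n ⌊δ * n⌋₊ bc), ∃ w ∈ enl S₀ n, nm (v - w) ≤ 1 :=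
    fun v hv => z3_in hp hD hQ hn hv
  have hB : ∀ v ∈ oB p n Q bc x (ρ + 4), ∃ w ∈ enl S₀ n, nm (v - w) ≤ ρ + 6 := by
    intro v hv
    obtain ⟨w, hw, h1⟩ := oB_near hp hD hQ hg hbg hδ hδg hn hv
    exact ⟨w, hw, by omega⟩
  have hz0 : z 0 = yO p n Q bc x.1 + (((K : ℤ) + 12) * r1 - 1) • dir (pdir p x.1 - 1) := by
    rw [z0]
    unfold yO
    rw [yI_def, jpos_floor]
    module
  have hR2 : (1 : ℤ) ≤ (C + 13 : ℤ) * n := by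
    have h1 : (1 : ℤ) ≤ n := by exact_mod_cast n4
    have h2 : (1 : ℤ) ≤ C + 13 := by omega
    exact one_le_mul_of_one_le_of_one_le h2 h1
  have hKr : 0 ≤ ((K : ℤ) + 6) * r := by positivity
  have hΛ0 : 0 ≤ Λ := by omega
  have hΛr : 0 ≤ Λ * ((K + 6) * r) := by positivity
  have e5 : Λ * (Λ + 1) * (K + 6) * r = Λ * (Λ * ((K + 6) * r)) + Λ * ((K + 6) * r) := by ring
  have hΛr' : 0 ≤ Λ * (Λ * ((K + 6) * r)) := by positivity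
  rw [e5] at q5
  obtain ⟨R₁, T, hT⟩ := tub_core (K := K) (Λ := Λ) (s0 := s0) (s' := 0)
    (M := Λ * ((K + 6) * r) + 2 - 1) (ρ := ρ) (r := r) (r1 := r1) (a := 0 + (K + 4) * r)
    (N := N) hK hΛ q1 q2 q3 le_rfl rfl
    (by
      have : Λ * (0 + ((K : ℤ) + 4) * r + 2 * r) = Λ * ((K + 6) * r) := by ring
      omega) (by omega) q4 hR2 q7 hout hB1 hI hB ⟨wP, hwP, hPw⟩ hEE hz0 z1 z2 hfar hmN q8
  obtain ⟨R₂, T', hT'⟩ := tub_core (K := K) (Λ := Λ) (s0 := s0)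
    (s' := Λ * ((K + 6) * r) + 2 + 2) (M := ρ - 4) (ρ := ρ) (r := r) (r1 := r1)
    (a := Λ * ((K + 6) * r) + 2 + 2 + (K + 4) * r)
    (N := N) hK hΛ q1 q2 q3 (by omega) rfl
    (by
      have : Λ * (Λ * ((K + 6) * r) + 2 + 2 + ((K : ℤ) + 4) * r + 2 * r) =
        Λ * (Λ * ((K + 6) * r)) + Λ * ((K + 6) * r) + 4 * Λ := by ring
      omega) (by omega) q4 hR2 q7 hout hB1 hI hB ⟨wP, hwP, hPw⟩ hEE hz0 z1 z2 hfar hmN q8
  exact ⟨Λ * ((K + 6) * r) + 2, max R₁ R₂, T, T', by omega, by omega,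
    hT _ (le_max_left _ _), hT' _ (le_max_right _ _)⟩

end

/-- **GEO-TUBE: the tubes at the special points.** -/
theorem tub_ex [NeZero l] (hp : IsPolygon p) (hS : Encloses p S₀) (hQ : Q.Ok)
    (hb : bc.Ok l Q) {g : ℝ} (hg : Gap Q l g) (hbg : BGap l Q g bc) (K : ℕ) (hK : 3 ≤ K)
    (Λ s0 : ℤ) (hΛ : 1 ≤ Λ) :
    ∃ κ₁ : ℝ, 0 < κ₁ ∧ ∀ κ' : ℝ, 0 < κ' → κ' < κ₁ → ∃ N : ℕ, ∀ θ β δ : ℝ, 0 < δ → 4 * δ ≤ g →
      ∀ᶠ n : ℕ in atTop, ∀ x : Fin l × Fin (Q.m + 1), Spc l Q bc x →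
        ∃ (s R₀ : ℤ) (T T' : TubP), 2 ≤ s ∧ s + 8 ≤ ⌊4 * κ' * n⌋ ∧
          Tub K Λ s0 N (enl S₀ n) (uI (frows θ β p Q n ⌊δ * n⌋₊ bc))
            (oB p n Q bc x (⌊4 * κ' * n⌋ + 4)) (yO p n Q bc x.1) (pdir p x.1) 0 (s - 1)
            ⌊4 * κ' * n⌋ R₀ T ∧
          Tub K Λ s0 N (enl S₀ n) (uI (frows θ β p Q n ⌊δ * n⌋₊ bc))
            (oB p n Q bc x (⌊4 * κ' * n⌋ + 4)) (yO p n Q bc x.1) (pdir p x.1) (s + 2)
            (⌊4 * κ' * n⌋ - 4) ⌊4 * κ' * n⌋ R₀ T' := by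
  rcases le_or_gt g 0 with hg0 | hg0
  · exact ⟨1, one_pos, fun κ' _ _ => ⟨0, fun θ β δ h1 h2 => absurd h2 (by linarith)⟩⟩
  obtain ⟨C, hC⟩ := exists_nat_ge (R0 p S₀ + 1)
  have hK0 : (3 : ℝ) ≤ K := by exact_mod_cast hK
  -- the chains
  have A : ∀ x : Fin l × Fin (Q.m + 1), ∃ e : ℝ, 0 < e ∧ (Spc l Q bc x →
      ∀ ε : ℝ, 0 < ε → ε < e → ∃ m : ℕ, ∀ᶠ n : ℕ in atTop, ∃ z : ℕ → ℤ × ℤ,
        z 0 = (n : ℤ) • p ((x.1 : ℕ) : ZMod l) +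
          (⌊tS Q bc x.1 * n⌋₊ : ℤ) • dir (pdir p x.1) +
          ((K + 12 : ℤ) * (⌊ε * n⌋₊ : ℤ)) • dir (pdir p x.1 - 1) ∧
        (∀ i < m, nm (z (i + 1) - z i) ≤ ⌊ε * n⌋₊) ∧
        (∀ i ≤ m, ∀ v, nm (v - z i) ≤ (K + 11) * (⌊ε * n⌋₊ : ℤ) → v ∉ enl S₀ n) ∧
        ((K * (C + 13) + C + 10 : ℕ) : ℝ) * n < nm (z m)) := by
    intro x
    by_cases hx : Spc l Q bc x
    · obtain ⟨h0, h1⟩ := spc_pos hQ hx
      obtain ⟨e, he, H⟩ := z4 hp hS h0 h1 (x.1 : ℕ) (K + 10) 0 ((K * (C + 13) + C + 10 : ℕ) : ℝ)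
      refine ⟨e, he, fun _ ε hε hεe => ?_⟩
      obtain ⟨m, -, hm⟩ := H ε hε hεe
      refine ⟨m, hm.mono fun n hn => ?_⟩
      obtain ⟨z, z0, z1, z2, z3⟩ := hn
      refine ⟨z, ?_, z1, fun i hi v hv => z2 i hi v ?_, z3⟩
      · rw [z0 0 le_rfl]
        push_cast
        congr 3
      · push_cast
        rw [show ((K : ℤ) + 10 + 1) = K + 11 by ring]
        exact hv
    · exact ⟨1, one_pos, fun h => absurd h hx⟩
  choose e he0 he1 using A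
  obtain ⟨e0, he00, he01⟩ := exists_lower e he0
  obtain ⟨ε1, hε1, a1, a2, a3⟩ : ∃ ε1 : ℝ, 0 < ε1 ∧ ε1 < e0 ∧ ε1 ≤ 1 ∧
      (2 * K + 30) * ε1 ≤ g / 4 := by
    refine ⟨min (e0 / 2) (min 1 (g / (4 * (2 * K + 30)))), ?_, ?_, ?_, ?_⟩
    · exact lt_min (by linarith) (lt_min one_pos (by positivity))
    · exact (min_le_left _ _).trans_lt (by linarith)
    · exact (min_le_right _ _).trans (min_le_left _ _)
    · have h1 : min (e0 / 2) (min 1 (g / (4 * (2 * (K : ℝ) + 30)))) ≤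
        g / (4 * (2 * K + 30)) := (min_le_right _ _).trans (min_le_right _ _)
      calc (2 * (K : ℝ) + 30) * _ ≤ (2 * K + 30) * (g / (4 * (2 * K + 30))) :=
            mul_le_mul_of_nonneg_left h1 (by positivity)
        _ = g / 4 := by field_simp
  refine ⟨ε1 / 8, by positivity, fun κ' hκ' hκ1 => ?_⟩
  have hΛ0 : (1 : ℝ) ≤ Λ := by exact_mod_cast hΛ
  obtain ⟨ε, hε, hεκ⟩ : ∃ ε : ℝ, 0 < ε ∧ Λ * (Λ + 1) * (K + 6) * ε = κ' := by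
    refine ⟨κ' / (Λ * (Λ + 1) * (K + 6)), by positivity, ?_⟩
    field_simp
  have hΛK : (1 : ℝ) ≤ Λ * (Λ + 1) * (K + 6) := by
    have h1 : (1 : ℝ) ≤ Λ * (Λ + 1) := by nlinarith
    have h2 : (1 : ℝ) ≤ K + 6 := by linarith
    exact one_le_mul_of_one_le_of_one_le h1 h2
  have hεκ' : ε ≤ κ' := by
    calc ε = 1 * ε := (one_mul _).symm
      _ ≤ Λ * (Λ + 1) * (K + 6) * ε := mul_le_mul_of_nonneg_right hΛK hε.le
      _ = κ' := hεκ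
  have A2 : ∀ x : Fin l × Fin (Q.m + 1), ∃ m : ℕ, Spc l Q bc x →
      ∀ᶠ n : ℕ in atTop, ∃ z : ℕ → ℤ × ℤ,
        z 0 = (n : ℤ) • p ((x.1 : ℕ) : ZMod l) +
          (⌊tS Q bc x.1 * n⌋₊ : ℤ) • dir (pdir p x.1) +
          ((K + 12 : ℤ) * (⌊ε1 * n⌋₊ : ℤ)) • dir (pdir p x.1 - 1) ∧
        (∀ i < m, nm (z (i + 1) - z i) ≤ ⌊ε1 * n⌋₊) ∧
        (∀ i ≤ m, ∀ v, nm (v - z i) ≤ (K + 11) * (⌊ε1 * n⌋₊ : ℤ) → v ∉ enl S₀ n) ∧
        ((K * (C + 13) + C + 10 : ℕ) : ℝ) * n < nm (z m) := by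
    intro x
    by_cases hx : Spc l Q bc x
    · obtain ⟨m, hm⟩ := he1 x hx ε1 hε1 (a1.trans_le (he01 x))
      exact ⟨m, fun _ => hm⟩
    · exact ⟨0, fun h => absurd h hx⟩
  choose m hm using A2
  obtain ⟨N1, hN1⟩ := exists_nat_ge (2 * (K + 12) * ε1 / ε)
  refine ⟨univ.sup m + N1 + 2, fun θ β δ hδ hδg => ?_⟩
  have hall : ∀ᶠ n : ℕ in atTop, ∀ x : Fin l × Fin (Q.m + 1), Spc l Q bc x →
      ∃ z : ℕ → ℤ × ℤ,
        z 0 = (n : ℤ) • p ((x.1 : ℕ) : ZMod l) +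
          (⌊tS Q bc x.1 * n⌋₊ : ℤ) • dir (pdir p x.1) +
          ((K + 12 : ℤ) * (⌊ε1 * n⌋₊ : ℤ)) • dir (pdir p x.1 - 1) ∧
        (∀ i < m x, nm (z (i + 1) - z i) ≤ ⌊ε1 * n⌋₊) ∧
        (∀ i ≤ m x, ∀ v, nm (v - z i) ≤ (K + 11) * (⌊ε1 * n⌋₊ : ℤ) → v ∉ enl S₀ n) ∧
        ((K * (C + 13) + C + 10 : ℕ) : ℝ) * n < nm (z (m x)) := by
    rw [eventually_all]
    intro x
    by_cases hx : Spc l Q bc x
    · exact (hm x hx).mono fun n hn _ => hn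
    · exact Eventually.of_forall fun n h => absurd h hx
  have tend := tendsto_natCast_atTop_atTop (R := ℝ)
  filter_upwards [hall, tend.eventually_ge_atTop (16 / δ),
    tend.eventually_ge_atTop ((|(s0 : ℝ)| + 2) / ε),
    tend.eventually_ge_atTop ((4 * Λ + 20) / κ'), eventually_gt_atTop 0]
    with n hz n1 n2 n3 n4 x hx
  rw [div_le_iff₀ hδ] at n1
  rw [div_le_iff₀ hε] at n2
  rw [div_le_iff₀ hκ'] at n3
  have hn : 16 ≤ δ * n := by linarith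
  have hn0 : (1 : ℝ) ≤ n := by exact_mod_cast n4
  obtain ⟨z, z0, z1, z2, z3⟩ := hz x hx
  -- the radii
  have hs0 := le_abs_self (s0 : ℝ)
  have hs0' := abs_nonneg (s0 : ℝ)
  have f1 := Nat.lt_floor_add_one (ε * n)
  have f2 := Nat.floor_le (show 0 ≤ ε * n by positivity)
  have g1 := Nat.lt_floor_add_one (ε1 * n)
  have g2 := Nat.floor_le (show 0 ≤ ε1 * n by positivity)
  have k1 := Int.lt_floor_add_one (4 * κ' * n)
  have k2 := Int.floor_le (4 * κ' * n)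
  have hε1κ : 8 * κ' * n ≤ ε1 * n := mul_le_mul_of_nonneg_right (by linarith) (by linarith)
  have hr1' : ⌊ε * n⌋₊ ≤ ⌊ε1 * n⌋₊ :=
    Nat.floor_le_floor (mul_le_mul_of_nonneg_right (by linarith) (by linarith))
  generalize hr : (⌊ε * n⌋₊ : ℕ) = r at *
  generalize hr1 : (⌊ε1 * n⌋₊ : ℕ) = r1 at *
  generalize hρ : (⌊4 * κ' * n⌋ : ℤ) = ρ at *
  have q1 : (1 : ℤ) ≤ r := by
    have : (1 : ℝ) ≤ r := by linarith
    exact_mod_cast this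
  have q2 : s0 ≤ (r : ℤ) := by
    have : (s0 : ℝ) ≤ r := by linarith
    exact_mod_cast this
  have q3 : (r : ℤ) ≤ r1 := by exact_mod_cast hr1'
  have q4 : ρ + 8 ≤ (r1 : ℤ) := by
    have : (ρ : ℝ) + 8 ≤ r1 := by linarith
    exact_mod_cast this
  have q5 : Λ * (Λ + 1) * (K + 6) * r + (4 * Λ + 20) ≤ ρ := by
    have h1 : (Λ : ℝ) * (Λ + 1) * (K + 6) * r ≤ κ' * n := by
      calc (Λ : ℝ) * (Λ + 1) * (K + 6) * r ≤ Λ * (Λ + 1) * (K + 6) * (ε * n) :=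
            mul_le_mul_of_nonneg_left f2 (by positivity)
        _ = (Λ * (Λ + 1) * (K + 6) * ε) * n := by ring
        _ = κ' * n := by rw [hεκ]
    have h2 : (Λ : ℝ) * (Λ + 1) * (K + 6) * r + (4 * Λ + 20) ≤ ρ := by linarith
    exact_mod_cast h2
  have q6 : (r1 : ℤ) ≤ n := by
    have h1 : ε1 * n ≤ 1 * n := mul_le_mul_of_nonneg_right a2 (by linarith)
    have : (r1 : ℝ) ≤ n := by linarith
    exact_mod_cast this
  have q7 : (2 * (K : ℤ) + 30) * r1 ≤ ⌊g * n / 4⌋ := by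
    rw [Int.le_floor]
    push_cast
    calc (2 * (K : ℝ) + 30) * r1 ≤ (2 * K + 30) * (ε1 * n) :=
          mul_le_mul_of_nonneg_left g2 (by positivity)
      _ = ((2 * K + 30) * ε1) * n := by ring
      _ ≤ g / 4 * n := mul_le_mul_of_nonneg_right a3 (by linarith)
      _ = g * n / 4 := by ring
  have q8 : ((K : ℤ) + 12) * r1 ≤ (((univ.sup m + N1 + 2 : ℕ) : ℤ) - 2) * r := by
    have h1 : ε * n / 2 ≤ r := by linarith
    have h2 : 2 * (K + 12) * ε1 ≤ N1 * ε := by rwa [div_le_iff₀ hε] at hN1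
    have h3 : ((K : ℝ) + 12) * r1 ≤ N1 * r := by
      calc ((K : ℝ) + 12) * r1 ≤ (K + 12) * (ε1 * n) :=
            mul_le_mul_of_nonneg_left g2 (by positivity)
        _ = (2 * (K + 12) * ε1) * (n / 2) := by ring
        _ ≤ (N1 * ε) * (n / 2) := mul_le_mul_of_nonneg_right h2 (by positivity)
        _ = N1 * (ε * n / 2) := by ring
        _ ≤ N1 * r := mul_le_mul_of_nonneg_left h1 (Nat.cast_nonneg _)
    have h4 : ((K : ℤ) + 12) * r1 ≤ N1 * r := by exact_mod_cast h3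
    refine h4.trans (mul_le_mul_of_nonneg_right ?_ (by omega))
    push_cast
    have : (0 : ℤ) ≤ (univ.sup m : ℕ) := Int.natCast_nonneg _
    linarith
  have hmx : m x ≤ univ.sup m := le_sup (mem_univ x)
  exact tub_n hp hS hQ hg hbg hδ hδg hn hK hΛ hC q1 q2 q3 q4 q5 q6 q7 q8 (by omega) hx z0 z1 z2 z3

end Vale.Agent.P167.H208.Tub
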