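import Vale.Agent.P167.H704.S.TubD

/-!
# P167, general `q`, block Q-START (P2S): existence of the tubes, abstract form
-/

namespace Vale.Agent.P167.H208.Tub

open Finset Vale.Agent.P167.FK
open Vale.Agent.P167.E6 (dir)
open Vale.Agent.P167.H166N (Hs Qs nm_tri nm_comm)
open Vale.Agent.P167.H704.S (zn nm_zn zn_step nm_smul_dir TubP Tub)

theorem nn (v : ℤ × ℤ) : 0 ≤ nm v := (abs_nonneg _).trans (le_max_left _ _)

/-- The squares of a ball around a point of the normal. -/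
theorem zn_Qs {p : ℤ × ℤ} {r0 : Fin 4} {a r R : ℤ} (hr : 0 ≤ r) (hR : R < a) (i : ℕ) {v : ℤ × ℤ}
    (hv : nm (v - zn p r0 a r i) ≤ R) : v ∈ Qs r0 p := by
  have h1 : |(v - zn p r0 a r i).1| ≤ R := (le_max_left _ _).trans hv
  have h2 : |(v - zn p r0 a r i).2| ≤ R := (le_max_right _ _).trans hv
  rw [abs_le] at h1 h2
  unfold zn at h1 h2
  have hi : (0 : ℤ) ≤ (i : ℤ) * r := by positivity
  have h3 : R < a + i * r := by omega
  generalize a + (i : ℤ) * r = s at h3 h1 h2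
  fin_cases r0 <;> simp [Qs, dir] at h1 h2 ⊢ <;> omega

theorem mem_Bq_of {v c : ℤ × ℤ} {R : ℤ} (h : nm (v - c) < R) : v ∈ Bq c R := by
  have h1 : |(v - c).1| < R := (le_max_left _ _).trans_lt h
  have h2 : |(v - c).2| < R := (le_max_right _ _).trans_lt h
  rw [abs_lt] at h1 h2
  simp only [Prod.fst_sub, Prod.snd_sub] at h1 h2
  unfold Bq
  rw [mem_product, mem_Ico, mem_Ico]
  omega

theorem nm_of_Bq {v c : ℤ × ℤ} {R : ℤ} (h : v ∈ Bq c R) : nm (v - c) ≤ R := by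
  unfold Bq at h
  rw [mem_product, mem_Ico, mem_Ico] at h
  unfold nm
  rw [max_le_iff, abs_le, abs_le]
  simp only [Prod.fst_sub, Prod.snd_sub]
  omega

/-- **Existence of one tube.** -/
theorem tub_core {K : ℕ} {Λ s0 : ℤ} {E I B : Finset (ℤ × ℤ)} {P : ℤ × ℤ} {r0 : Fin 4}
    {s' M ρ r r1 a R2 G : ℤ} {zc : ℕ → ℤ × ℤ} {mc N : ℕ} (hK : 3 ≤ K) (hΛ : 1 ≤ Λ)
    (hr : 1 ≤ r) (hs0 : s0 ≤ r) (hr1 : r ≤ r1) (hs' : 0 ≤ s') (ha : a = s' + (K + 4) * r)
    (hM : Λ * (a + 2 * r) ≤ M) (hMρ : M ≤ ρ) (hρ : ρ + 8 ≤ r1) (hR2 : 1 ≤ R2)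
    (hG : (2 * K + 30) * r1 ≤ G)
    (hout : ∀ v, nm (v - P) ≤ G → v ∈ Qs r0 P → v ∉ E ∧ v ∉ I)
    (hB1 : ∀ v, nm (v - P) ≤ G → v ∉ B)
    (hI : ∀ v ∈ I, ∃ w ∈ E, nm (v - w) ≤ 1)
    (hB : ∀ v ∈ B, ∃ w ∈ E, nm (v - w) ≤ ρ + 6)
    (hP : ∃ w ∈ E, nm (P - w) ≤ 2)
    (hE : ∀ w ∈ E, ∀ w' ∈ E, nm (w - w') + ρ + 12 ≤ 2 * R2)
    (hz0 : zc 0 = P + ((K + 12) * r1 - 1) • dir (r0 - 1))
    (hz1 : ∀ i < mc, nm (zc (i + 1) - zc i) ≤ r1)
    (hz2 : ∀ i ≤ mc, ∀ v, nm (v - zc i) ≤ (K + 11) * r1 → v ∉ E)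
    (hfar : K * R2 + 2 + r1 ≤ nm (zc mc - P))
    (hN : mc + 2 ≤ N) (hN' : (K + 12) * r1 ≤ (N - 2) * r) :
    ∃ (R₁ : ℤ) (T : TubP), ∀ R₀, R₁ ≤ R₀ → Tub K Λ s0 N E I B P r0 s' M ρ R₀ T := by
  have hK' : (3 : ℤ) ≤ K := by exact_mod_cast hK
  have hKr : (3 : ℤ) * r ≤ K * r := mul_le_mul_of_nonneg_right hK' (by omega)
  have hKr1 : (3 : ℤ) * r1 ≤ K * r1 := mul_le_mul_of_nonneg_right hK' (by omega)
  have hKR : (K : ℤ) * r ≤ K * r1 := mul_le_mul_of_nonneg_left hr1 (by omega)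
  have ea : a = s' + K * r + 4 * r := by rw [ha]; ring
  have eG : (2 * K + 30) * r1 = 2 * (K * r1) + 30 * r1 := by ring
  have e12 : ((K : ℤ) + 12) * r1 = K * r1 + 12 * r1 := by ring
  have e11 : ((K : ℤ) + 11) * r1 = K * r1 + 11 * r1 := by ring
  have ha0 : 0 ≤ a := by omega
  have hm1 : a + 2 * r ≤ Λ * (a + 2 * r) := by nlinarith
  have haρ : a + 2 * r ≤ ρ := by omega
  -- the number of small nodes
  obtain ⟨i2, hi2⟩ : ∃ i2 : ℕ, (i2 : ℤ) = ((K + 12) * r1 - 1 - a) / r :=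
    ⟨(((K + 12) * r1 - 1 - a) / r).toNat, Int.toNat_of_nonneg (Int.ediv_nonneg (by omega) (by omega))⟩
  have i2a : (i2 : ℤ) * r ≤ (K + 12) * r1 - 1 - a := by
    rw [hi2]
    exact Int.ediv_mul_le _ (by omega)
  have i2b : (K + 12) * r1 - 1 - a < (i2 : ℤ) * r + r := by
    rw [hi2]
    have := Int.lt_ediv_add_one_mul_self ((K + 12) * r1 - 1 - a) (show 0 < r by omega)
    generalize ((K : ℤ) + 12) * r1 - 1 - a = X at this ⊢
    generalize X / r = Y at this ⊢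
    linarith
  have i2N : i2 + 1 ≤ N := by
    have h1 : (i2 : ℤ) * r < ((N : ℤ) - 2) * r := by omega
    have h2 : (i2 : ℤ) < (N : ℤ) - 2 := lt_of_mul_lt_mul_right h1 (by omega)
    omega
  rw [e12] at i2a i2b hN'
  rw [eG] at hG
  -- the points
  set z : ℕ → ℤ × ℤ := fun i => if i = 0 then zn P r0 a r i2 else zc (i - 1) with hz
  have z0 : z 0 = zn P r0 a r i2 := by rw [hz]; simp
  have zs : ∀ i, z (i + 1) = zc i := fun i => by rw [hz]; simp
  have hd0 : nm (zc 0 - zn P r0 a r i2) ≤ r := by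
    have e : zc 0 - zn P r0 a r i2 = ((K + 12) * r1 - 1 - (a + i2 * r)) • dir (r0 - 1) := by
      rw [hz0]
      unfold zn
      module
    rw [e, nm_smul_dir (by rw [e12]; omega), e12]
    omega
  -- large balls are off `E`
  have zE : ∀ i ≤ mc + 1, ∀ v, nm (v - z i) ≤ (K + 10) * r1 → v ∉ E := by
    intro i hi v hv
    have e10 : ((K : ℤ) + 10) * r1 = K * r1 + 10 * r1 := by ring
    rw [e10] at hv
    rcases Nat.eq_zero_or_pos i with rfl | hi0
    · refine hz2 0 (Nat.zero_le _) v ?_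
      rw [z0] at hv
      have h1 := nm_tri v (zn P r0 a r i2) (zc 0)
      rw [nm_comm (zn P r0 a r i2) (zc 0)] at h1
      rw [e11]
      omega
    · obtain ⟨j, rfl⟩ : ∃ j, i = j + 1 := ⟨i - 1, by omega⟩
      rw [zs] at hv
      refine hz2 j (by omega) v ?_
      rw [e11]
      omega
  have e10 : ((K : ℤ) + 10) * r1 = K * r1 + 10 * r1 := by ring
  have zI : ∀ i ≤ mc + 1, ∀ v, nm (v - z i) ≤ (K + 2) * r1 + 1 → v ∉ E ∧ v ∉ I := by
    intro i hi v hv
    have e2 : ((K : ℤ) + 2) * r1 = K * r1 + 2 * r1 := by ring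
    rw [e2] at hv
    refine ⟨zE i hi v (by rw [e10]; omega), fun hvI => ?_⟩
    obtain ⟨w, hw, hvw⟩ := hI v hvI
    refine zE i hi w ?_ hw
    have h1 := nm_tri w v (z i)
    rw [nm_comm w v] at h1
    rw [e10]
    omega
  obtain ⟨wP, hwP, hPw⟩ := hP
  have zB : ∀ i ≤ mc + 1, ∀ v, nm (v - z i) ≤ (K + 2) * r1 → v ∉ B ∧ v ∉ Bq P s' := by
    intro i hi v hv
    have e2 : ((K : ℤ) + 2) * r1 = K * r1 + 2 * r1 := by ring
    rw [e2] at hv
    constructor
    · intro hvB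
      obtain ⟨w, hw, hvw⟩ := hB v hvB
      refine zE i hi w ?_ hw
      have h1 := nm_tri w v (z i)
      rw [nm_comm w v] at h1
      rw [e10]
      omega
    · intro hvB
      have h0 := nm_of_Bq hvB
      refine zE i hi wP ?_ hwP
      have h1 := nm_tri wP P (z i)
      have h2 := nm_tri P v (z i)
      rw [nm_comm wP P] at h1
      rw [nm_comm P v] at h2
      rw [e10]
      omega
  -- bounds
  set R₁ : ℤ := 1 + nm P + K * R2 + (∑ i ∈ range (mc + 2), nm (z i)) + (K + 2) * r1 +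
    (a + i2 * r) + (K + 2) * r + Λ * (a + 2 * r) with hR₁
  have p1 : 0 ≤ nm P := nn _
  have p2 : 0 ≤ (K : ℤ) * R2 := by positivity
  have p3 : 0 ≤ ∑ i ∈ range (mc + 2), nm (z i) := sum_nonneg fun _ _ => nn _
  have p4 : 0 ≤ ((K : ℤ) + 2) * r1 := by nlinarith
  have p5 : 0 ≤ (i2 : ℤ) * r := by positivity
  have p6 : 0 ≤ ((K : ℤ) + 2) * r := by nlinarith
  have hb0 : ∀ {v : ℤ × ℤ} {R : ℤ}, nm v < R → v ∈ Bq 0 R := fun {v R} h => by
    refine mem_Bq_of ?_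
    rwa [sub_zero]
  have hbP : ∀ v : ℤ × ℤ, nm v ≤ nm (v - P) + nm P := fun v => by
    have := nm_tri v P 0
    rwa [sub_zero, sub_zero] at this
  refine ⟨R₁, ⟨i2, mc + 1, a, a + 2 * r, Λ * (a + 2 * r), r, r1, R2, z⟩, fun R₀ hR₀ => ?_⟩
  refine ⟨hs0, hr, hr1, by show 1 ≤ a + 2 * r; omega, by show s' < a + 2 * r; omega, hm1,
    le_rfl, hM, ?_, by show a + r < a + 2 * r; omega, ?_, ?_, ?_, z0, ?_, i2N,
    by show mc + 1 + 1 ≤ N; omega, hR2, ?_, ?_, ?_, ?_, ?_, ?_, ?_, ?_⟩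
  · show (K : ℤ) * r ≤ a
    omega
  · show Λ * (a + 2 * r) + r ≤ a + i2 * r
    omega
  · show ρ + r ≤ a + i2 * r
    omega
  · show (K : ℤ) * r1 + r ≤ i2 * r
    omega
  · intro i hi
    show nm (z (i + 1) - z i) ≤ r1
    have hi' : i < mc + 1 := hi
    rw [zs]
    rcases Nat.eq_zero_or_pos i with rfl | hi0
    · rw [z0]
      omega
    · obtain ⟨j, rfl⟩ : ∃ j, i = j + 1 := ⟨i - 1, by omega⟩
      rw [zs]
      exact hz1 j (by omega)
  · show (K : ℤ) * R2 + 2 + r1 ≤ nm (z (mc + 1) - P)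
    rw [zs]
    exact hfar
  · -- the polygon and the rows are inside
    intro w hw
    show nm (w - P) + 2 ≤ 2 * R2 + 1
    have key : ∀ w' ∈ E, nm (w' - P) ≤ 2 * R2 - ρ - 12 + 2 := by
      intro w' hw'
      have h1 := hE w' hw' wP hwP
      have h2 := nm_tri w' wP P
      rw [nm_comm wP P] at h2
      omega
    rcases hw with hw | hw
    · have := key w hw
      omega
    · obtain ⟨w', hw', h1⟩ := hI w hw
      have := key w' hw'
      have h2 := nm_tri w w' P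
      omega
  · -- the half annulus
    intro v hv hv' hvQ
    have h1 : nm (v - P) ≤ Λ * (a + 2 * r) := nm_of_Bq hv
    have h2 := hbP v
    refine ⟨hb0 (by omega), (hout v (by omega) hvQ).2, hB1 v (by omega), fun h3 => hv' ?_⟩
    refine mem_Bq_of (lt_of_le_of_lt (nm_of_Bq h3) ?_)
    show s' < a + 2 * r
    omega
  · -- the small nodes
    intro i hi v hv
    have hi' : i ≤ i2 := hi
    have hv1 : nm (v - zn P r0 a r i) ≤ (K + 2) * r := hv
    have e2 : ((K : ℤ) + 2) * r = K * r + 2 * r := by ring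
    have h1 := nm_zn (p := P) (r0 := r0) ha0 (show 0 ≤ r by omega) i
    have h2 : (i : ℤ) * r ≤ i2 * r := mul_le_mul_of_nonneg_right (by exact_mod_cast hi') (by omega)
    have h2' : (0 : ℤ) ≤ (i : ℤ) * r := by positivity
    have h3 := nm_tri v (zn P r0 a r i) P
    have h4 := nm_tri (zn P r0 a r i) v P
    rw [nm_comm (zn P r0 a r i) v] at h4
    have h5 := hbP v
    have hvQ : v ∈ Qs r0 P := zn_Qs (by omega) (show (K + 2) * r < a by omega) i hv1
    have hvG : nm (v - P) ≤ G := by omega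
    refine ⟨hb0 (by omega), (hout v hvG hvQ).2, hB1 v hvG, fun h6 => ?_⟩
    have := nm_of_Bq h6
    omega
  · -- the large nodes
    intro i hi v hv
    have hi' : i ≤ mc + 1 := hi
    have hv1 : nm (v - z i) ≤ (K + 2) * r1 := hv
    have h1 : nm (z i) ≤ ∑ i ∈ range (mc + 2), nm (z i) :=
      single_le_sum (f := fun i => nm (z i)) (fun _ _ => nn _) (mem_range.2 (by omega))
    have h2 := nm_tri v (z i) 0
    rw [sub_zero, sub_zero] at h2
    obtain ⟨h3, h4⟩ := zB i hi' v hv1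
    exact ⟨hb0 (by omega), (zI i hi' v (by omega)).2, h3, h4⟩
  · -- the large annulus
    intro v hv hv'
    have h1 : nm (v - P) ≤ K * R2 := nm_of_Bq hv
    have h2 := hbP v
    have h3 : 2 * R2 + 1 ≤ nm (v - P) := by
      by_contra hcon
      exact hv' (mem_Bq_of (by show nm (v - P) < 2 * R2 + 1; omega))
    have key : ∀ w' ∈ E, nm (v - w') ≤ ρ + 6 → False := by
      intro w' hw' h4
      have h5 := hE w' hw' wP hwP
      have h6 := nm_tri w' wP P
      rw [nm_comm wP P] at h6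
      have h7 := nm_tri v w' P
      omega
    refine ⟨hb0 (by omega), fun h4 => ?_, fun h4 => ?_, fun h4 => ?_⟩
    · obtain ⟨w', hw', h5⟩ := hI v h4
      exact key w' hw' (by omega)
    · obtain ⟨w', hw', h5⟩ := hB v h4
      exact key w' hw' h5
    · have h5 := nm_of_Bq h4
      have h6 := hE wP hwP wP hwP
      have h7 := nn (wP - wP)
      omega
  · -- the first part is off the polygon
    intro w hw hwQ
    have h1 : nm (w - P) ≤ a + i2 * r + K * r := hw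
    exact hout w (by omega) hwQ
  · -- the second part
    intro w i hi hw
    have h1 : nm (w - z i) ≤ K * r1 + 1 := hw
    refine zI i hi w ?_
    have e2 : ((K : ℤ) + 2) * r1 = K * r1 + 2 * r1 := by ring
    rw [e2]
    omega

end Vale.Agent.P167.H208.Tub
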