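import Vale.Agent.P167.H208.Tub.Ex
import Vale.Agent.P167.H704.S.Asm

/-!
# P167, general `q`, block Q-START (P2S): the literal input `TubEx`
-/

namespace Vale.Agent.P167.H208.Tub

open Finset Vale.Agent.P167.FK
open Vale.Agent.P167.H704.S (Tub TubEx)

theorem tub_mono {K : ℕ} {Λ s0 : ℤ} {N : ℕ} {E I B B' : Finset (ℤ × ℤ)} {P : ℤ × ℤ}
    {r0 : Fin 4} {s' M ρ R₀ : ℤ} {T : H704.S.TubP} (h : Tub K Λ s0 N E I B P r0 s' M ρ R₀ T)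
    (hB : B' ⊆ B) : Tub K Λ s0 N E I B' P r0 s' M ρ R₀ T where
  hr0 := h.hr0
  hr := h.hr
  hr1 := h.hr1
  hm := h.hm
  hs' := h.hs'
  hmm := h.hmm
  hΛ := h.hΛ
  hM := h.hM
  ha := h.ha
  ham := h.ham
  hi2 := h.hi2
  hρ := h.hρ
  hi2' := h.hi2'
  hz0 := h.hz0
  hz1 := h.hz1
  hN2 := h.hN2
  hN1 := h.hN1
  hR2 := h.hR2
  far := h.far
  inn := h.inn
  d1 := fun v h1 h2 h3 => by
    obtain ⟨a1, a2, a3, a4⟩ := h.d1 v h1 h2 h3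
    exact ⟨a1, a2, fun h4 => a3 (hB h4), a4⟩
  d2 := fun i hi v h1 => by
    obtain ⟨a1, a2, a3, a4⟩ := h.d2 i hi v h1
    exact ⟨a1, a2, fun h4 => a3 (hB h4), a4⟩
  d3 := fun i hi v h1 => by
    obtain ⟨a1, a2, a3, a4⟩ := h.d3 i hi v h1
    exact ⟨a1, a2, fun h4 => a3 (hB h4), a4⟩
  d4 := fun v h1 h2 => by
    obtain ⟨a1, a2, a3, a4⟩ := h.d4 v h1 h2
    exact ⟨a1, a2, fun h4 => a3 (hB h4), a4⟩
  e1 := h.e1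
  e2 := h.e2

/-- **The literal input `TubEx`.** -/
theorem tubEx : TubEx := by
  intro l _ p S₀ hp hS Q hQ bc hb g _ hg hbg K Λ s0 hK hΛ
  obtain ⟨κ₁, hκ₁, H⟩ := tub_ex hp hS hQ hb hg hbg K hK Λ s0 hΛ
  refine ⟨κ₁, hκ₁, fun κ' h1 h2 => ?_⟩
  obtain ⟨N, hN⟩ := H κ' h1 h2
  refine ⟨N, fun θ β δ hδ hδg => (hN θ β δ hδ hδg).mono fun n hn x hx => ?_⟩
  obtain ⟨s, R₀, T, T', a1, a2, a3, a4⟩ := hn x hx
  have hsub : H704.S.oB p n Q bc x ⌊4 * κ' * n⌋ ⊆ oB p n Q bc x (⌊4 * κ' * n⌋ + 4) := by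
    intro v hv
    obtain ⟨y, hy⟩ := H704.S.mem_oB.1 hv
    exact mem_oB.2 ⟨y, hy.2.1, hy.1, hy.2.2⟩
  exact ⟨s, R₀, T, T', a1, a2, tub_mono a3 hsub, tub_mono a4 hsub⟩

end Vale.Agent.P167.H208.Tub
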